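import Vale.Agent.Lib.P356.helper23.Defs

/-!
Polynomials of matrices: eigen relations and commutation (pool job 412, second copy).
-/

namespace Vale.Agent.Lib.P356.H96

open Matrix
open Vale.Agent.Lib.P356

theorem aeval_mul_of_mul_eq {n : Type*} [Fintype n] [DecidableEq n] (h Q : Matrix n n ℂ)
    (lam : ℂ) (hQ : h * Q = lam • Q) (p : Polynomial ℂ) :
    Polynomial.aeval h p * Q = p.eval lam • Q := by
  induction p using Polynomial.induction_on with
  | C c =>
    rw [Polynomial.aeval_C, Polynomial.eval_C, Algebra.algebraMap_eq_smul_one, Matrix.smul_mul,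
      Matrix.one_mul]
  | add p q hp hq =>
    rw [map_add, Matrix.add_mul, hp, hq, Polynomial.eval_add, add_smul]
  | monomial k c ih =>
    rw [pow_succ, ← mul_assoc, map_mul, Polynomial.aeval_X, Matrix.mul_assoc, hQ,
      Matrix.mul_smul, ih, smul_smul, Polynomial.eval_mul_X, mul_comm]

theorem aeval_mulVec_of_mulVec_eq {n : Type*} [Fintype n] [DecidableEq n] (h : Matrix n n ℂ)
    (ψ : n → ℂ) (lam : ℂ) (hψ : h *ᵥ ψ = lam • ψ) (p : Polynomial ℂ) :
    Polynomial.aeval h p *ᵥ ψ = p.eval lam • ψ := by
  induction p using Polynomial.induction_on with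
  | C c =>
    rw [Polynomial.aeval_C, Polynomial.eval_C, Algebra.algebraMap_eq_smul_one,
      Matrix.smul_mulVec, Matrix.one_mulVec]
  | add p q hp hq =>
    rw [map_add, Matrix.add_mulVec, hp, hq, Polynomial.eval_add, add_smul]
  | monomial k c ih =>
    rw [pow_succ, ← mul_assoc, map_mul, Polynomial.aeval_X, ← Matrix.mulVec_mulVec, hψ,
      Matrix.mulVec_smul, ih, smul_smul, Polynomial.eval_mul_X, mul_comm]

theorem aeval_commute_right {n : Type*} [Fintype n] [DecidableEq n] (a b : Matrix n n ℂ)
    (hab : a * b = b * a) (p : Polynomial ℂ) :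
    Polynomial.aeval a p * b = b * Polynomial.aeval a p := by
  induction p using Polynomial.induction_on with
  | C c =>
    rw [Polynomial.aeval_C, Algebra.algebraMap_eq_smul_one, Matrix.smul_mul, Matrix.mul_smul,
      Matrix.one_mul, Matrix.mul_one]
  | add p q hp hq =>
    rw [map_add, Matrix.add_mul, Matrix.mul_add, hp, hq]
  | monomial k c ih =>
    rw [pow_succ, ← mul_assoc, map_mul, Polynomial.aeval_X, Matrix.mul_assoc, hab,
      ← Matrix.mul_assoc, ih, Matrix.mul_assoc]

theorem aeval_comm {n : Type*} [Fintype n] [DecidableEq n] (a b : Matrix n n ℂ)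
    (hab : a * b = b * a) (p r : Polynomial ℂ) :
    Polynomial.aeval a p * Polynomial.aeval b r = Polynomial.aeval b r * Polynomial.aeval a p :=
  (aeval_commute_right b (Polynomial.aeval a p) (aeval_commute_right a b hab p).symm r).symm

end Vale.Agent.Lib.P356.H96
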